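import Mathlib.Data.Nat.Bitwise
import Mathlib.Data.Finset.Card
import Vale.Agent.P052.Data

namespace Vale.Agent.P052

/-- Evaluate a natural number before passing it on. -/
noncomputable def force {α : Type} (n : Nat) (f : Nat → α) : α :=
  Nat.rec (f 0) (fun k _ => f (Nat.succ k)) n

theorem force_eq {α : Type} (n : Nat) (f : Nat → α) : force n f = f n := by
  cases n <;> rfl

/-- The index of the lowest bit of `x`. -/
noncomputable def idx (x : Nat) : Nat :=
  Nat.mod (Nat.shiftRight tab (Nat.mul 12
    (Nat.mod (Nat.xor x (Nat.land x (Nat.sub x 1))) 839))) 4096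

/-- The number `x` with a checksum as its lowest 64 bits. -/
noncomputable def enc (x : Nat) : Nat :=
  Nat.add (Nat.mul x 18446744073709551616) (Nat.mod x 2305843009213693951)

/-- One step of the search. -/
noncomputable def nstep (ih : Nat → Nat → Bool) (k x : Nat) : Bool :=
  force (idx x) fun v =>
    Bool.and (ih k (enc (Nat.land x (Nat.shiftRight D (Nat.mul 416 v)))))
      (ih (Nat.succ k) (enc (Nat.xor x (Nat.pow 2 v))))

/-- The search: `nc fuel k cand = true` certifies that the vertices whose labels are the bits
of `cand / 2 ^ 64` contain no clique with more than `k` elements. -/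
noncomputable def nc (fuel : Nat) : Nat → Nat → Bool :=
  Nat.rec (fun _ _ => false)
    (fun _ ih k cand =>
      Nat.rec true (fun c _ =>
        Nat.rec false (fun k' _ => nstep ih k' (Nat.shiftRight (Nat.succ c) 64)) k) cand) fuel

theorem nc_succ (n k' c : Nat) : nc (n + 1) (k' + 1) (c + 1) =
    nstep (nc n) k' (Nat.shiftRight (Nat.succ c) 64) := rfl

theorem enc_shift (x : Nat) : (enc x) >>> 64 = x := by
  have e : enc x = x * 18446744073709551616 + x % 2305843009213693951 := rfl
  rw [e, Nat.shiftRight_eq_div_pow]
  omega

theorem nc_sound (fuel : Nat) : ∀ (k cand : Nat), nc fuel k cand = true →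
    ∀ s : Finset Nat, (∀ i ∈ s, (cand >>> 64).testBit i = true) →
      (∀ i ∈ s, ∀ j ∈ s, i ≠ j → D.testBit (416 * i + j) = true) → s.card ≤ k := by
  induction fuel with
  | zero => intro k cand h; exact absurd h (by simp [nc])
  | succ n ih =>
    intro k cand h s hs hadj
    cases cand with
    | zero =>
      have : s = ∅ := by
        apply Finset.eq_empty_of_forall_notMem
        intro i hi
        have := hs i hi
        simp at this
      simp [this]
    | succ c =>
      cases k with
      | zero => exact absurd h (by simp [nc])
      | succ k' =>
        rw [nc_succ, nstep, force_eq, Bool.and_eq_true] at h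
        have e0 : Nat.shiftRight (Nat.succ c) 64 = (c + 1) >>> 64 := rfl
        rw [e0] at h
        generalize hx : (c + 1) >>> 64 = x at h hs
        obtain ⟨h1, h2⟩ := h
        generalize idx x = v at h1 h2
        have hrest : ∀ i, i ≠ v → x.testBit i = true →
            (Nat.xor x (Nat.pow 2 v)).testBit i = true := by
          intro i hi hc
          have e : Nat.xor x (Nat.pow 2 v) = x ^^^ 2 ^ v := rfl
          rw [e, Nat.testBit_xor, hc, Nat.testBit_two_pow]
          simp [Ne.symm hi]
        by_cases hvs : v ∈ s
        · have h3 := ih k' _ h1 (s.erase v) (by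
            intro i hi
            rw [Finset.mem_erase] at hi
            have e : Nat.land x (Nat.shiftRight D (Nat.mul 416 v))
              = x &&& (D >>> (416 * v)) := rfl
            rw [enc_shift, e, Nat.testBit_and, hs i hi.2, Nat.testBit_shiftRight,
              hadj v hvs i hi.2 (Ne.symm hi.1)]
            rfl) (by
            intro i hi j hj hij
            exact hadj i (Finset.mem_of_mem_erase hi) j (Finset.mem_of_mem_erase hj) hij)
          rw [Finset.card_erase_of_mem hvs] at h3
          omega
        · exact ih (k' + 1) _ h2 s (by
            intro i hi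
            rw [enc_shift]
            exact hrest i (fun h => hvs (h ▸ hi)) (hs i hi)) hadj

/-- The neighbours of the vertex with label `w` whose labels are below `w`. -/
noncomputable def low (w : Nat) : Nat :=
  Nat.mod (Nat.shiftRight D (Nat.mul 416 w)) (Nat.pow 2 w)

/-- The check for the vertices `a, …, a + n - 1`. -/
noncomputable def chk (a n : Nat) : Bool :=
  Nat.rec true (fun k ih => Bool.and (nc 420 4 (enc (low (Nat.mul 8 (Nat.add a k))))) ih) n

end Vale.Agent.P052
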