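import Mathlib.Data.Nat.Bitwise
import Vale.Agent.P052.Clique

namespace Vale.Agent.P052

/-- The number with ones as its `n` lowest base-256 digits. -/
noncomputable def ones (n : Nat) : Nat :=
  Nat.rec 0 (fun _ ih => Nat.add 1 (Nat.mul 256 ih)) n

/-- Row `i` of the adjacency matrix, packed. -/
noncomputable def row (i : Nat) : Nat :=
  Nat.mod (Nat.shiftRight D (Nat.mul 3328 i)) (Nat.pow 2 3328)

/-- The number of entries of the packed row `x`, where `o = ones 208`. -/
noncomputable def cnt (o x : Nat) : Nat :=
  Nat.add (Nat.mod (Nat.land x o) 255) (Nat.mod (Nat.land (Nat.shiftRight x 1664) o) 255)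

/-- Entry `j` of the packed row `x`. -/
noncomputable def bit (x j : Nat) : Nat := Nat.mod (Nat.shiftRight x (Nat.mul 8 j)) 2

/-- The check for a pair of vertices. -/
noncomputable def pairOK (o i j : Nat) : Bool :=
  cond (Nat.beq i j)
    (Bool.and (Nat.beq (cnt o (Nat.land (row i) (row j))) 100) (Nat.beq (bit (row i) j) 0))
    (Bool.and
      (Nat.beq (cnt o (Nat.land (row i) (row j))) (Nat.add 20 (Nat.mul 16 (bit (row i) j))))
      (Nat.beq (bit (row i) j) (bit (row j) i)))

/-- Bounded quantification. -/
noncomputable def allB (n : Nat) (f : Nat → Bool) : Bool :=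
  Nat.rec true (fun k ih => Bool.and (f k) ih) n

/-- The check of the parameters for the vertices `a, …, a + n - 1`. -/
noncomputable def srgChk (a n : Nat) : Bool :=
  force (ones 208) fun o => allB n fun k => force (Nat.add a k) fun i =>
    allB (Nat.succ i) fun j => pairOK o i j

/-- The number of neighbours of `i` among `s, …, s + 31`, where `o = ones 32`. -/
noncomputable def nbr (o i s : Nat) : Nat :=
  Nat.mod (Nat.land (Nat.shiftRight (row i) (Nat.mul 8 s)) o) 255

/-- The expected number of neighbours of `i` among `s, …, s + 31`. -/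
noncomputable def expd (i s : Nat) : Nat :=
  cond (Nat.ble i 319) 8
    (cond (Bool.and (Nat.ble s i) (Nat.ble i (Nat.add s 31))) 20 0)

/-- The check of the neighbours in the three blocks. -/
noncomputable def blkChk (n : Nat) : Bool :=
  force (ones 32) fun o => allB n fun i =>
    Bool.and (Nat.beq (nbr o i 320) (expd i 320))
      (Bool.and (Nat.beq (nbr o i 352) (expd i 352))
        (Nat.beq (nbr o i 384) (expd i 384)))

end Vale.Agent.P052
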