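import Vale.Agent.P052.Clique

namespace Vale.Agent.P052

theorem clq0 : chk 0 157 = true := by decide +kernel

theorem clq1 : chk 157 34 = true := by decide +kernel

theorem clq2 : chk 191 24 = true := by decide +kernel

theorem clq3 : chk 215 16 = true := by decide +kernel

end Vale.Agent.P052
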