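import Vale.Agent.P052.Clique

namespace Vale.Agent.P052

theorem clq4 : chk 231 14 = true := by decide +kernel

theorem clq5 : chk 245 11 = true := by decide +kernel

theorem clq6 : chk 256 11 = true := by decide +kernel

theorem clq7 : chk 267 9 = true := by decide +kernel

end Vale.Agent.P052
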