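import Vale.Agent.P052.Clique

namespace Vale.Agent.P052

theorem clq8 : chk 276 8 = true := by decide +kernel

theorem clq9 : chk 284 8 = true := by decide +kernel

theorem clq10 : chk 292 7 = true := by decide +kernel

theorem clq11 : chk 299 8 = true := by decide +kernel

end Vale.Agent.P052
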