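import Vale.Agent.P052.Clique

namespace Vale.Agent.P052

theorem clq12 : chk 307 6 = true := by decide +kernel

theorem clq13 : chk 313 6 = true := by decide +kernel

theorem clq14 : chk 319 4 = true := by decide +kernel

theorem clq15 : chk 323 3 = true := by decide +kernel

end Vale.Agent.P052
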