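import Mathlib
import Vale.Agent.P052.Chk

namespace Vale.Agent.P052

open Finset

theorem ones_succ (n : Nat) : ones (n + 1) = 1 + 256 * ones n := rfl

/-- Pack a sequence of bits in base 256. -/
def pk (n : Nat) (f : Nat → Bool) : Nat := ∑ j ∈ range n, (f j).toNat * 256 ^ j

theorem pk_succ (n : Nat) (f : Nat → Bool) :
    pk (n + 1) f = (f 0).toNat + 256 * pk n (fun j => f (j + 1)) := by
  unfold pk
  rw [sum_range_succ', mul_sum, add_comm]
  congr 1
  · simp
  · apply sum_congr rfl
    intro j _
    ring

theorem land_ones (n : Nat) : ∀ x : Nat, x &&& ones n = pk n (fun j => x.testBit (8 * j)) := by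
  induction n with
  | zero => intro x; simp [ones, pk]
  | succ n ih =>
    intro x
    rw [pk_succ, ones_succ]
    have h1 : (fun j => x.testBit (8 * (j + 1))) = (fun j => (x / 256).testBit (8 * j)) := by
      funext j
      have : x / 256 = x >>> 8 := by rw [Nat.shiftRight_eq_div_pow]
      rw [this, Nat.testBit_shiftRight]
      congr 1
      ring
    rw [h1, ← ih (x / 256)]
    apply Nat.eq_of_testBit_eq
    intro i
    have hx : x = 2 ^ 8 * (x / 256) + x % 256 := by
      have := Nat.div_add_mod x 256
      norm_num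
      omega
    have e1 : (1 + 256 * ones n) = 2 ^ 8 * ones n + 1 := by ring
    have e2 : ((x.testBit (8 * 0)).toNat + 256 * (x / 256 &&& ones n)) =
        2 ^ 8 * (x / 256 &&& ones n) + (x.testBit (8 * 0)).toNat := by ring
    have hb : (x.testBit (8 * 0)).toNat < 2 ^ 8 := by
      cases x.testBit (8 * 0) <;> simp
    rw [e1, e2, Nat.testBit_and, Nat.testBit_two_pow_mul_add _ (by norm_num : 1 < 2 ^ 8),
      Nat.testBit_two_pow_mul_add _ hb]
    by_cases h : i < 8
    · rw [if_pos h, if_pos h]
      rcases Nat.eq_zero_or_pos i with h0 | h0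
      · subst h0
        cases x.testBit 0 <;> simp
      · have : Nat.testBit 1 i = false := by
          obtain ⟨j, rfl⟩ : ∃ j, i = j + 1 := ⟨i - 1, by omega⟩
          simp [Nat.testBit_succ]
        rw [this, Bool.and_false]
        cases x.testBit (8 * 0)
        · simp
        · simp
          omega
    · rw [if_neg h, if_neg h, Nat.testBit_and]
      congr 1
      have : x / 256 = x >>> 8 := by rw [Nat.shiftRight_eq_div_pow]
      rw [this, Nat.testBit_shiftRight]
      congr 1
      omega

theorem pk_mod (n : Nat) (f : Nat → Bool) (hn : n < 255) :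
    pk n f % 255 = ∑ j ∈ range n, (f j).toNat := by
  have h1 : pk n f ≡ ∑ j ∈ range n, (f j).toNat [MOD 255] := by
    unfold pk
    induction n with
    | zero => simp [Nat.ModEq]
    | succ n ih =>
      rw [sum_range_succ, sum_range_succ]
      apply Nat.ModEq.add (ih (by omega))
      have : 256 ^ n ≡ 1 ^ n [MOD 255] := Nat.ModEq.pow n (by decide)
      have h2 := Nat.ModEq.mul_left (f n).toNat this
      simpa using h2
  have h2 : ∑ j ∈ range n, (f j).toNat ≤ n := by
    calc ∑ j ∈ range n, (f j).toNat ≤ ∑ j ∈ range n, 1 :=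
          sum_le_sum (fun j _ => by cases f j <;> simp)
      _ = n := by simp
  have h3 : (∑ j ∈ range n, (f j).toNat) % 255 = ∑ j ∈ range n, (f j).toNat :=
    Nat.mod_eq_of_lt (by omega)
  rw [← h3]
  exact h1

/-- Count the bits with index `8 * j`, for `j < n`. -/
theorem count_bits (n : Nat) (hn : n < 255) (x : Nat) :
    (x &&& ones n) % 255 = ∑ j ∈ range n, (x.testBit (8 * j)).toNat := by
  rw [land_ones, pk_mod n _ hn]

end Vale.Agent.P052
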