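import Vale.Agent.P052.Chk

namespace Vale.Agent.P052

theorem srg2 : srgChk 294 66 = true := by decide +kernel

theorem srg3 : srgChk 360 56 = true := by decide +kernel

end Vale.Agent.P052
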