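import Mathlib
import Vale.Agent.P052.Count
import Vale.Agent.P052.ClqA
import Vale.Agent.P052.ClqB
import Vale.Agent.P052.ClqC
import Vale.Agent.P052.ClqD
import Vale.Agent.P052.SrgA
import Vale.Agent.P052.SrgB

namespace Vale.Agent.P052

open Finset

/-- Adjacency of the vertices `i` and `j`. -/
noncomputable def adj (i j : ℕ) : Bool := D.testBit (3328 * i + 8 * j)

theorem allB_true {n : ℕ} {f : ℕ → Bool} (h : allB n f = true) : ∀ k < n, f k = true := by
  induction n with
  | zero => intro k hk; omega
  | succ n ih =>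
    have h' : Bool.and (f n) (allB n f) = true := h
    rw [Bool.and_eq_true] at h'
    intro k hk
    rcases Nat.lt_succ_iff_lt_or_eq.mp hk with h1 | h1
    · exact ih h'.2 k h1
    · rw [h1]; exact h'.1

theorem chk_true {a n : ℕ} (h : chk a n = true) :
    ∀ w, a ≤ w → w < a + n → nc 420 4 (enc (low (8 * w))) = true := by
  induction n with
  | zero => intro w h1 h2; omega
  | succ n ih =>
    have h' : Bool.and (nc 420 4 (enc (low (8 * (a + n))))) (chk a n) = true := h
    rw [Bool.and_eq_true] at h'
    intro w h1 h2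
    by_cases h3 : w = a + n
    · rw [h3]; exact h'.1
    · exact ih h'.2 w h1 (by omega)

theorem chk_all (w : ℕ) (hw : w < 326) : nc 420 4 (enc (low (8 * w))) = true := by
  by_cases h0 : w < 157
  · exact chk_true clq0 w (by omega) (by omega)
  by_cases h1 : w < 191
  · exact chk_true clq1 w (by omega) (by omega)
  by_cases h2 : w < 215
  · exact chk_true clq2 w (by omega) (by omega)
  by_cases h3 : w < 231
  · exact chk_true clq3 w (by omega) (by omega)
  by_cases h4 : w < 245
  · exact chk_true clq4 w (by omega) (by omega)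
  by_cases h5 : w < 256
  · exact chk_true clq5 w (by omega) (by omega)
  by_cases h6 : w < 267
  · exact chk_true clq6 w (by omega) (by omega)
  by_cases h7 : w < 276
  · exact chk_true clq7 w (by omega) (by omega)
  by_cases h8 : w < 284
  · exact chk_true clq8 w (by omega) (by omega)
  by_cases h9 : w < 292
  · exact chk_true clq9 w (by omega) (by omega)
  by_cases h10 : w < 299
  · exact chk_true clq10 w (by omega) (by omega)
  by_cases h11 : w < 307
  · exact chk_true clq11 w (by omega) (by omega)
  by_cases h12 : w < 313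
  · exact chk_true clq12 w (by omega) (by omega)
  by_cases h13 : w < 319
  · exact chk_true clq13 w (by omega) (by omega)
  by_cases h14 : w < 323
  · exact chk_true clq14 w (by omega) (by omega)
  · exact chk_true clq15 w (by omega) (by omega)

/-- Every clique on the vertices below 326 has at most 5 elements. -/
theorem clique_le (s : Finset ℕ) (hs : ∀ i ∈ s, i < 326)
    (hc : ∀ i ∈ s, ∀ j ∈ s, i ≠ j → adj i j = true) : s.card ≤ 5 := by
  classical
  rcases s.eq_empty_or_nonempty with h0 | h0
  · simp [h0]
  have hw := s.max'_mem h0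
  set w := s.max' h0 with hwdef
  have hinj : Function.Injective (fun i : ℕ => 8 * i) := fun a b h => by
    simp only at h
    omega
  have h1 := nc_sound 420 4 (enc (low (8 * w))) (chk_all w (hs w hw))
    ((s.erase w).image (fun i => 8 * i)) (by
      intro i hi
      rw [mem_image] at hi
      obtain ⟨j, hj, rfl⟩ := hi
      rw [mem_erase] at hj
      have hlt : j < w := lt_of_le_of_ne (s.le_max' j hj.2) hj.1
      rw [enc_shift]
      have e : low (8 * w) = (D >>> (416 * (8 * w))) % 2 ^ (8 * w) := rfl
      rw [e, Nat.testBit_mod_two_pow, Nat.testBit_shiftRight]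
      have h2 := hc w hw j hj.2 (Ne.symm hj.1)
      unfold adj at h2
      have e2 : 416 * (8 * w) + 8 * j = 3328 * w + 8 * j := by ring
      rw [e2, h2]
      simp
      omega) (by
      intro i hi j hj hij
      rw [mem_image] at hi hj
      obtain ⟨a, ha, rfl⟩ := hi
      obtain ⟨b, hb, rfl⟩ := hj
      have h2 := hc a (mem_of_mem_erase ha) b (mem_of_mem_erase hb)
        (fun h => hij (by rw [h]))
      unfold adj at h2
      have e2 : 416 * (8 * a) + 8 * b = 3328 * a + 8 * b := by ring
      rw [e2]
      exact h2)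
  rw [card_image_of_injective _ hinj, card_erase_of_mem hw] at h1
  omega

theorem row_testBit (i k : ℕ) (hk : k < 416) : (row i).testBit (8 * k) = adj i k := by
  have e : row i = (D >>> (3328 * i)) % 2 ^ 3328 := rfl
  rw [e, Nat.testBit_mod_two_pow, Nat.testBit_shiftRight]
  unfold adj
  simp
  omega

theorem cnt_eq (x : ℕ) : cnt (ones 208) x = ∑ k ∈ range 416, (x.testBit (8 * k)).toNat := by
  have e : cnt (ones 208) x = (x &&& ones 208) % 255 + ((x >>> 1664) &&& ones 208) % 255 := rfl
  rw [e, count_bits 208 (by norm_num), count_bits 208 (by norm_num)]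
  rw [show 416 = 208 + 208 from rfl, sum_range_add]
  apply congrArg₂
  · rfl
  · apply sum_congr rfl
    intro k _
    rw [Nat.testBit_shiftRight]
    congr 2
    ring

theorem bit_eq (i j : ℕ) (hj : j < 416) : bit (row i) j = (adj i j).toNat := by
  have e : bit (row i) j = (row i >>> (8 * j)) % 2 := rfl
  rw [e, ← row_testBit i j hj, Nat.testBit]
  rw [Nat.and_comm, Nat.and_one_is_mod]
  rcases Nat.mod_two_eq_zero_or_one (row i >>> (8 * j)) with h | h <;> rw [h] <;> rfl

theorem cnt_pair (i j : ℕ) : cnt (ones 208) (Nat.land (row i) (row j)) =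
    ∑ k ∈ range 416, (adj i k && adj j k).toNat := by
  rw [cnt_eq]
  apply sum_congr rfl
  intro k hk
  rw [mem_range] at hk
  have e : Nat.land (row i) (row j) = (row i) &&& (row j) := rfl
  rw [e, Nat.testBit_and, row_testBit i k hk, row_testBit j k hk]

theorem srg_true {a n : ℕ} (h : srgChk a n = true) :
    ∀ i, a ≤ i → i < a + n → ∀ j ≤ i, pairOK (ones 208) i j = true := by
  unfold srgChk at h
  rw [force_eq] at h
  intro i h1 h2 j hj
  have h3 := allB_true h (i - a) (by omega)
  rw [force_eq] at h3
  have e : Nat.add a (i - a) = i := by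
    show a + (i - a) = i
    omega
  rw [e] at h3
  exact allB_true h3 j (by omega)

theorem srg_all (i j : ℕ) (hi : i < 416) (hj : j ≤ i) : pairOK (ones 208) i j = true := by
  by_cases h0 : i < 208
  · exact srg_true srg0 i (by omega) (by omega) j hj
  by_cases h1 : i < 294
  · exact srg_true srg1 i (by omega) (by omega) j hj
  by_cases h2 : i < 360
  · exact srg_true srg2 i (by omega) (by omega) j hj
  · exact srg_true srg3 i (by omega) (by omega) j hj

theorem adj_self (i : ℕ) (hi : i < 416) : adj i i = false := by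
  have h := srg_all i i hi le_rfl
  unfold pairOK at h
  rw [show Nat.beq i i = true from by simp, cond_true, Bool.and_eq_true] at h
  have h2 := Nat.eq_of_beq_eq_true h.2
  rw [bit_eq i i hi] at h2
  cases hh : adj i i
  · rfl
  · rw [hh] at h2; simp at h2

theorem deg (i : ℕ) (hi : i < 416) : ∑ k ∈ range 416, (adj i k && adj i k).toNat = 100 := by
  have h := srg_all i i hi le_rfl
  unfold pairOK at h
  rw [show Nat.beq i i = true from by simp, cond_true, Bool.and_eq_true] at h
  have h2 := Nat.eq_of_beq_eq_true h.1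
  rw [cnt_pair] at h2
  exact h2

theorem pair_lt (i j : ℕ) (hi : i < 416) (hj : j < i) :
    ∑ k ∈ range 416, (adj i k && adj j k).toNat = 20 + 16 * (adj i j).toNat ∧
      adj i j = adj j i := by
  have h := srg_all i j hi hj.le
  unfold pairOK at h
  have hb : Nat.beq i j = false := by
    rw [Bool.eq_false_iff]
    intro hh
    have := Nat.eq_of_beq_eq_true hh
    omega
  rw [hb, cond_false, Bool.and_eq_true] at h
  have h1 := Nat.eq_of_beq_eq_true h.1
  have h2 := Nat.eq_of_beq_eq_true h.2
  rw [cnt_pair, bit_eq i j (by omega)] at h1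
  rw [bit_eq i j (by omega), bit_eq j i hi] at h2
  refine ⟨h1, ?_⟩
  cases hh : adj i j <;> cases hh2 : adj j i <;> simp_all

theorem adj_comm (i j : ℕ) (hi : i < 416) (hj : j < 416) : adj i j = adj j i := by
  rcases lt_trichotomy i j with h | h | h
  · exact (pair_lt j i hj h).2.symm
  · rw [h]
  · exact (pair_lt i j hi h).2

theorem pair_ne (i j : ℕ) (hi : i < 416) (hj : j < 416) (hij : i ≠ j) :
    ∑ k ∈ range 416, (adj i k && adj j k).toNat = 20 + 16 * (adj i j).toNat := by
  rcases lt_trichotomy i j with h | h | h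
  · have := (pair_lt j i hj h).1
    rw [adj_comm i j hi hj, ← this]
    apply sum_congr rfl
    intro k _
    rw [Bool.and_comm]
  · exact absurd h hij
  · exact (pair_lt i j hi h).1

theorem nbr_eq (i s : ℕ) (hs : s + 32 ≤ 416) :
    nbr (ones 32) i s = ∑ k ∈ range 32, (adj i (s + k)).toNat := by
  have e : nbr (ones 32) i s = ((row i >>> (8 * s)) &&& ones 32) % 255 := rfl
  rw [e, count_bits 32 (by norm_num)]
  apply sum_congr rfl
  intro k hk
  rw [mem_range] at hk
  rw [Nat.testBit_shiftRight, ← row_testBit i (s + k) (by omega)]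
  congr 2
  ring

theorem blk_all (i : ℕ) (hi : i < 416) (s : ℕ) (hs : s = 320 ∨ s = 352 ∨ s = 384) :
    ∑ k ∈ range 32, (adj i (s + k)).toNat = expd i s := by
  have h := blk
  unfold blkChk at h
  rw [force_eq] at h
  have h1 := allB_true h i hi
  rw [Bool.and_eq_true, Bool.and_eq_true] at h1
  rcases hs with rfl | rfl | rfl
  · rw [← nbr_eq i 320 (by norm_num)]
    exact Nat.eq_of_beq_eq_true h1.1
  · rw [← nbr_eq i 352 (by norm_num)]
    exact Nat.eq_of_beq_eq_true h1.2.1
  · rw [← nbr_eq i 384 (by norm_num)]
    exact Nat.eq_of_beq_eq_true h1.2.2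

theorem expd_lt (i s : ℕ) (h : i < 320) : expd i s = 8 := by
  unfold expd
  rw [show Nat.ble i 319 = true from by rw [Nat.ble_eq]; omega, cond_true]

theorem expd_in (i s : ℕ) (h : 320 ≤ i) (h1 : s ≤ i) (h2 : i < s + 32) : expd i s = 20 := by
  unfold expd
  rw [show Nat.ble i 319 = false from by
    rw [Bool.eq_false_iff]; intro hh; rw [Nat.ble_eq] at hh; omega, cond_false,
    show Nat.ble s i = true from by rw [Nat.ble_eq]; omega,
    show Nat.ble i (Nat.add s 31) = true from by
      rw [Nat.ble_eq]; show i ≤ s + 31; omega]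
  rfl

theorem expd_out (i s : ℕ) (h : 320 ≤ i) (h1 : ¬ (s ≤ i ∧ i < s + 32)) : expd i s = 0 := by
  unfold expd
  rw [show Nat.ble i 319 = false from by
    rw [Bool.eq_false_iff]; intro hh; rw [Nat.ble_eq] at hh; omega, cond_false]
  have : Bool.and (Nat.ble s i) (Nat.ble i (Nat.add s 31)) = false := by
    rw [Bool.eq_false_iff]
    intro hh
    rw [Bool.and_eq_true, Nat.ble_eq, Nat.ble_eq] at hh
    apply h1
    have h3 : i ≤ s + 31 := hh.2
    omega
  rw [this]
  rfl

end Vale.Agent.P052
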