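import Mathlib

namespace Vale.Agent.P052

open Matrix

/-- A symmetric idempotent real matrix of trace `d` is the Gram form of a linear map to `ℝ^d`. -/
theorem exists_map {ι : Type} [Fintype ι] [DecidableEq ι] (M : Matrix ι ι ℝ) (hs : Mᵀ = M)
    (hi : M * M = M) (d : ℕ) (ht : M.trace = d) :
    ∃ L : (ι → ℝ) →ₗ[ℝ] EuclideanSpace ℝ (Fin d),
      ∀ x y, inner ℝ (L x) (L y) = x ⬝ᵥ (M *ᵥ y) := by
  classical
  let E := EuclideanSpace ℝ ι
  let f : E →ₗ[ℝ] E := Matrix.toEuclideanLin M
  have hf0 : ∀ x : E, (f x).ofLp = M *ᵥ x.ofLp := fun x => rfl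
  have hf : IsIdempotentElem f := by
    apply LinearMap.ext
    intro x
    apply (WithLp.ofLp_injective 2)
    rw [Module.End.mul_apply, hf0, hf0, Matrix.mulVec_mulVec, hi]
  have hp := LinearMap.IsIdempotentElem.isProj_range f hf
  have htr : LinearMap.trace ℝ E f = d := by
    have h0 : f = toLin (EuclideanSpace.basisFun ι ℝ).toBasis
        (EuclideanSpace.basisFun ι ℝ).toBasis M := rfl
    rw [h0, Matrix.trace_toLin_eq, ht]
  have hfin : Module.finrank ℝ (LinearMap.range f) = d := by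
    have := hp.trace
    rw [htr] at this
    exact_mod_cast this.symm
  let b := (stdOrthonormalBasis ℝ (LinearMap.range f)).reindex (finCongr hfin)
  let g : (ι → ℝ) →ₗ[ℝ] E := f.comp (WithLp.linearEquiv 2 ℝ (ι → ℝ)).symm.toLinearMap
  have hg : ∀ x, g x ∈ LinearMap.range f := fun x => ⟨_, rfl⟩
  refine ⟨b.repr.toLinearEquiv.toLinearMap.comp (g.codRestrict _ hg), ?_⟩
  intro x y
  have h1 : inner ℝ (b.repr (g.codRestrict _ hg x)) (b.repr (g.codRestrict _ hg y))
      = inner ℝ (g x) (g y) := by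
    rw [LinearIsometryEquiv.inner_map_map]
    rfl
  have h2 : ∀ x, (g x).ofLp = M *ᵥ x := fun x => rfl
  refine h1.trans ?_
  rw [EuclideanSpace.inner_eq_star_dotProduct, h2, h2]
  simp only [star_trivial]
  rw [dotProduct_comm, Matrix.dotProduct_mulVec, ← Matrix.mulVec_transpose, hs,
    Matrix.mulVec_mulVec, hi, dotProduct_comm, Matrix.dotProduct_mulVec, ← Matrix.mulVec_transpose, hs]
  rw [dotProduct_comm]

end Vale.Agent.P052
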