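import Mathlib
import Vale.Agent.P052.Facts

namespace Vale.Agent.P052

open Matrix Finset

abbrev V := Fin 416

/-- The adjacency matrix. -/
noncomputable def A : Matrix V V ℝ := Matrix.of fun i j => ((adj i j).toNat : ℝ)

/-- The all-ones matrix. -/
def J : Matrix V V ℝ := Matrix.of fun _ _ => 1

/-- The characteristic vector of `s, …, s + 31`. -/
def u (s : ℕ) : V → ℝ := fun i => if s ≤ (i : ℕ) ∧ (i : ℕ) < s + 32 then 1 else 0

theorem sum_range_V (f : ℕ → ℝ) : ∑ k ∈ range 416, f k = ∑ k : V, f k :=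
  (Fin.sum_univ_eq_sum_range f 416).symm

theorem A_symm : Aᵀ = A := by
  ext i j
  simp only [A, transpose_apply, of_apply]
  rw [adj_comm i j i.2 j.2]

theorem toNat_and (a b : Bool) : (((a && b).toNat : ℕ) : ℝ) = (a.toNat : ℝ) * (b.toNat : ℝ) := by
  cases a <;> cases b <;> simp

theorem A_sq : A * A = (80 : ℝ) • (1 : Matrix V V ℝ) + (16 : ℝ) • A + (20 : ℝ) • J := by
  ext i j
  have h1 : (A * A) i j = ∑ k : V, (((adj i k && adj j k).toNat : ℕ) : ℝ) := by
    rw [mul_apply]
    apply sum_congr rfl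
    intro k _
    rw [toNat_and]
    simp only [A, of_apply]
    rw [adj_comm k j k.2 j.2]
  have h2 : ∑ k : V, (((adj i k && adj j k).toNat : ℕ) : ℝ) =
      ((∑ k ∈ range 416, (adj i k && adj j k).toNat : ℕ) : ℝ) := by
    rw [Nat.cast_sum, sum_range_V]
  rw [h1, h2]
  simp only [Matrix.add_apply, Matrix.smul_apply, J, of_apply, smul_eq_mul, A]
  by_cases hij : i = j
  · subst hij
    rw [deg i i.2, adj_self i i.2]
    simp
    norm_num
  · rw [pair_ne i j i.2 j.2 (fun h => hij (Fin.ext h)), Matrix.one_apply_ne hij]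
    push_cast
    ring

theorem A_row (i : V) : ∑ k : V, A i k = 100 := by
  have h2 : ∑ k : V, A i k = ((∑ k ∈ range 416, (adj i k && adj i k).toNat : ℕ) : ℝ) := by
    rw [Nat.cast_sum, sum_range_V (fun k => (((adj i k && adj i k).toNat : ℕ) : ℝ))]
    apply sum_congr rfl
    intro k _
    simp [A]
  rw [h2, deg i i.2]
  norm_num

theorem A_mul_J : A * J = (100 : ℝ) • J := by
  ext i j
  rw [mul_apply]
  simp only [J, of_apply, mul_one, Matrix.smul_apply, smul_eq_mul]
  exact A_row i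

theorem J_symm : Jᵀ = J := by
  ext i j
  rfl

theorem J_mul_A : J * A = (100 : ℝ) • J := by
  have := congrArg Matrix.transpose A_mul_J
  rw [transpose_mul, J_symm, A_symm, transpose_smul, J_symm] at this
  exact this

theorem J_mul_J : J * J = (416 : ℝ) • J := by
  ext i j
  rw [mul_apply]
  simp [J]

/-- The projection onto the 65-dimensional eigenspace. -/
noncomputable def M0 : Matrix V V ℝ :=
  (96 : ℝ)⁻¹ • ((16 : ℝ) • (1 : Matrix V V ℝ) + (4 : ℝ) • A - J)

theorem M0_symm : M0ᵀ = M0 := by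
  unfold M0
  rw [transpose_smul, transpose_sub, transpose_add, transpose_smul, transpose_smul, A_symm,
    J_symm, transpose_one]

theorem M0_idem : M0 * M0 = M0 := by
  have h : ((16 : ℝ) • (1 : Matrix V V ℝ) + (4 : ℝ) • A - J) *
      ((16 : ℝ) • (1 : Matrix V V ℝ) + (4 : ℝ) • A - J) =
      (96 : ℝ) • ((16 : ℝ) • (1 : Matrix V V ℝ) + (4 : ℝ) • A - J) := by
    simp only [mul_add, add_mul, sub_mul, mul_sub, smul_mul_assoc, mul_smul_comm, one_mul,
      mul_one, A_sq, A_mul_J, J_mul_A, J_mul_J]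
    module
  unfold M0
  rw [smul_mul_assoc, mul_smul_comm, h, smul_smul, smul_smul]
  congr 1
  norm_num

theorem M0_trace : M0.trace = 65 := by
  unfold M0
  rw [trace_smul, trace_sub, trace_add, trace_smul, trace_smul, trace_one]
  have h1 : A.trace = 0 := by
    unfold Matrix.trace
    apply sum_eq_zero
    intro i _
    simp only [diag_apply, A, of_apply]
    rw [adj_self i i.2]
    simp
  have h2 : J.trace = 416 := by
    unfold Matrix.trace
    simp [J]
  rw [h1, h2]
  simp
  norm_num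

theorem M0_apply (i j : V) : M0 i j =
    (96 : ℝ)⁻¹ * (16 * (if i = j then 1 else 0) + 4 * ((adj i j).toNat : ℝ) - 1) := by
  unfold M0
  simp [A, J, Matrix.one_apply]

/-- Removing a unit vector from the range of a projection. -/
theorem step {ι : Type} [Fintype ι] [DecidableEq ι] (M : Matrix ι ι ℝ) (hs : Mᵀ = M)
    (hi : M * M = M) (v : ι → ℝ) (c : ℝ) (hc : c ≠ 0) (hv : M *ᵥ v = v) (hvv : v ⬝ᵥ v = c) :
    (M - c⁻¹ • vecMulVec v v)ᵀ = M - c⁻¹ • vecMulVec v v ∧
    (M - c⁻¹ • vecMulVec v v) * (M - c⁻¹ • vecMulVec v v) = M - c⁻¹ • vecMulVec v v ∧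
    (M - c⁻¹ • vecMulVec v v).trace = M.trace - 1 := by
  have hv2 : v ᵥ* M = v := by rw [← mulVec_transpose, hs, hv]
  have hMQ : M * vecMulVec v v = vecMulVec v v := by rw [mul_vecMulVec, hv]
  have hQM : vecMulVec v v * M = vecMulVec v v := by rw [vecMulVec_mul, hv2]
  have hQQ : vecMulVec v v * vecMulVec v v = c • vecMulVec v v := by
    rw [vecMulVec_mul_vecMulVec, hvv, vecMulVec_smul]
  refine ⟨?_, ?_, ?_⟩
  · rw [transpose_sub, transpose_smul, hs, transpose_vecMulVec]
  · have h1 : c⁻¹ * c = 1 := inv_mul_cancel₀ hc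
    simp only [sub_mul, mul_sub, smul_mul_assoc, mul_smul_comm, hMQ, hQM, hQQ, hi, smul_smul, h1,
      one_smul, sub_self, smul_zero, sub_zero]
  · rw [trace_sub, trace_smul, trace_vecMulVec, hvv, smul_eq_mul, inv_mul_cancel₀ hc]

end Vale.Agent.P052
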