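import Mathlib
import Vale.Agent.P052.Mat

namespace Vale.Agent.P052

open Matrix Finset

theorem sum_block (f : ℕ → ℝ) (s : ℕ) (hs : s + 32 ≤ 416) :
    ∑ k : V, f k * u s k = ∑ k ∈ range 32, f (s + k) := by
  have h1 : ∑ k : V, f k * u s k =
      ∑ k ∈ range 416, f k * (if s ≤ k ∧ k < s + 32 then 1 else 0) :=
    (Fin.sum_univ_eq_sum_range
      (fun k => f k * (if s ≤ k ∧ k < s + 32 then (1 : ℝ) else 0)) 416)
  rw [h1]
  have h2 : ∀ k, f k * (if s ≤ k ∧ k < s + 32 then (1 : ℝ) else 0) =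
      if s ≤ k ∧ k < s + 32 then f k else 0 := by
    intro k
    split_ifs <;> simp
  rw [sum_congr rfl (fun k _ => h2 k), ← sum_filter]
  symm
  apply sum_nbij' (fun k => s + k) (fun k => k - s)
  · intro k hk
    rw [mem_range] at hk
    rw [mem_filter, mem_range]
    omega
  · intro k hk
    rw [mem_filter, mem_range] at hk
    rw [mem_range]
    omega
  · intro k _
    omega
  · intro k hk
    rw [mem_filter, mem_range] at hk
    omega
  · intro k _
    rfl

theorem A_mul_u (s : ℕ) (hs : s = 320 ∨ s = 352 ∨ s = 384) :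
    A *ᵥ u s = fun i : V => ((expd i s : ℕ) : ℝ) := by
  funext i
  have h1 : (A *ᵥ u s) i = ∑ k : V, (fun n : ℕ => ((adj i n).toNat : ℝ)) k * u s k := rfl
  refine (h1.trans (sum_block (fun n : ℕ => ((adj i n).toNat : ℝ)) s
    (by rcases hs with rfl | rfl | rfl <;> norm_num))).trans ?_
  rw [← blk_all i i.2 s hs]
  push_cast
  rfl

theorem u_dot (s t : ℕ) (hs : s = 320 ∨ s = 352 ∨ s = 384) (ht : t = 320 ∨ t = 352 ∨ t = 384) :
    u s ⬝ᵥ u t = if s = t then 32 else 0 := by
  have h1 : u s ⬝ᵥ u t =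
    ∑ k : V, (fun n : ℕ => (if s ≤ n ∧ n < s + 32 then (1 : ℝ) else 0)) k * u t k := rfl
  refine (h1.trans (sum_block (fun n : ℕ => (if s ≤ n ∧ n < s + 32 then (1 : ℝ) else 0)) t
    (by rcases ht with rfl | rfl | rfl <;> norm_num))).trans ?_
  by_cases h : s = t
  · subst h
    rw [if_pos rfl]
    have : ∀ k ∈ range 32, (if s ≤ s + k ∧ s + k < s + 32 then (1 : ℝ) else 0) = 1 := by
      intro k hk
      rw [mem_range] at hk
      rw [if_pos (by omega)]
    rw [sum_congr rfl this]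
    simp
  · rw [if_neg h]
    apply sum_eq_zero
    intro k hk
    rw [mem_range] at hk
    show (if s ≤ t + k ∧ t + k < s + 32 then (1 : ℝ) else 0) = 0
    rw [if_neg (by omega)]

theorem u_sum (s : ℕ) (hs : s = 320 ∨ s = 352 ∨ s = 384) : ∑ k : V, u s k = 32 := by
  have h1 : ∑ k : V, u s k = ∑ k : V, (fun _ : ℕ => (1 : ℝ)) k * u s k := by simp
  refine (h1.trans (sum_block (fun _ : ℕ => (1 : ℝ)) s
    (by rcases hs with rfl | rfl | rfl <;> norm_num))).trans ?_
  simp

theorem J_mulVec (v : V → ℝ) : J *ᵥ v = fun _ => ∑ k, v k := by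
  funext i
  simp [mulVec, dotProduct, J]

theorem M0_mulVec (v : V → ℝ) (h1 : A *ᵥ v = (20 : ℝ) • v) (h2 : ∑ k, v k = 0) : M0 *ᵥ v = v := by
  unfold M0
  rw [smul_mulVec, sub_mulVec, add_mulVec, smul_mulVec, smul_mulVec, one_mulVec, h1, J_mulVec, h2]
  funext i
  simp only [Pi.smul_apply, Pi.add_apply, Pi.sub_apply, smul_eq_mul]
  ring

/-- The first removed vector. -/
noncomputable def v1 : V → ℝ := u 384 - u 352

/-- The second removed vector. -/
noncomputable def v2 : V → ℝ := u 384 + u 352 - (2 : ℝ) • u 320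

theorem expd_u (i : V) (s : ℕ) (hs : s = 320 ∨ s = 352 ∨ s = 384) :
    ((expd i s : ℕ) : ℝ) = 20 * u s i + (if (i : ℕ) < 320 then 8 else 0) := by
  unfold u
  by_cases h : (i : ℕ) < 320
  · rw [expd_lt i s h, if_pos h, if_neg (by omega)]
    norm_num
  · by_cases h1 : s ≤ (i : ℕ) ∧ (i : ℕ) < s + 32
    · rw [expd_in i s (by omega) h1.1 h1.2, if_neg h, if_pos h1]
      norm_num
    · rw [expd_out i s (by omega) h1, if_neg h, if_neg h1]
      norm_num

theorem A_v1 : A *ᵥ v1 = (20 : ℝ) • v1 := by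
  unfold v1
  rw [mulVec_sub, A_mul_u 384 (by tauto), A_mul_u 352 (by tauto)]
  funext i
  simp only [Pi.sub_apply, Pi.smul_apply, smul_eq_mul]
  rw [expd_u i 384 (by tauto), expd_u i 352 (by tauto)]
  ring

theorem A_v2 : A *ᵥ v2 = (20 : ℝ) • v2 := by
  unfold v2
  rw [mulVec_sub, mulVec_add, mulVec_smul, A_mul_u 384 (by tauto), A_mul_u 352 (by tauto),
    A_mul_u 320 (by tauto)]
  funext i
  simp only [Pi.sub_apply, Pi.add_apply, Pi.smul_apply, smul_eq_mul]
  rw [expd_u i 384 (by tauto), expd_u i 352 (by tauto), expd_u i 320 (by tauto)]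
  ring

theorem sum_v1 : ∑ k, v1 k = 0 := by
  unfold v1
  simp only [Pi.sub_apply]
  rw [sum_sub_distrib, u_sum 384 (by tauto), u_sum 352 (by tauto)]
  ring

theorem sum_v2 : ∑ k, v2 k = 0 := by
  unfold v2
  simp only [Pi.sub_apply, Pi.add_apply, Pi.smul_apply, smul_eq_mul]
  rw [sum_sub_distrib, sum_add_distrib, ← mul_sum, u_sum 384 (by tauto), u_sum 352 (by tauto),
    u_sum 320 (by tauto)]
  ring

theorem v1_dot : v1 ⬝ᵥ v1 = 64 := by
  unfold v1
  simp only [sub_dotProduct, dotProduct_sub]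
  rw [u_dot 384 384 (by tauto) (by tauto), u_dot 384 352 (by tauto) (by tauto),
    u_dot 352 384 (by tauto) (by tauto), u_dot 352 352 (by tauto) (by tauto)]
  norm_num

theorem v2_dot : v2 ⬝ᵥ v2 = 192 := by
  unfold v2
  simp only [sub_dotProduct, dotProduct_sub, add_dotProduct, dotProduct_add, smul_dotProduct,
    dotProduct_smul, smul_eq_mul]
  rw [u_dot 384 384 (by tauto) (by tauto), u_dot 384 352 (by tauto) (by tauto),
    u_dot 352 384 (by tauto) (by tauto), u_dot 352 352 (by tauto) (by tauto),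
    u_dot 384 320 (by tauto) (by tauto), u_dot 352 320 (by tauto) (by tauto),
    u_dot 320 384 (by tauto) (by tauto), u_dot 320 352 (by tauto) (by tauto),
    u_dot 320 320 (by tauto) (by tauto)]
  norm_num

theorem v12_dot : v1 ⬝ᵥ v2 = 0 := by
  unfold v1 v2
  simp only [sub_dotProduct, dotProduct_sub, add_dotProduct, dotProduct_add, smul_dotProduct,
    dotProduct_smul, smul_eq_mul]
  rw [u_dot 384 384 (by tauto) (by tauto), u_dot 384 352 (by tauto) (by tauto),
    u_dot 352 384 (by tauto) (by tauto), u_dot 352 352 (by tauto) (by tauto),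
    u_dot 384 320 (by tauto) (by tauto), u_dot 352 320 (by tauto) (by tauto)]
  norm_num

/-- The projection of rank 64. -/
noncomputable def M1 : Matrix V V ℝ := M0 - (64 : ℝ)⁻¹ • vecMulVec v1 v1

/-- The projection of rank 63. -/
noncomputable def M2 : Matrix V V ℝ := M1 - (192 : ℝ)⁻¹ • vecMulVec v2 v2

theorem M1_props : M1ᵀ = M1 ∧ M1 * M1 = M1 ∧ M1.trace = 64 := by
  have h := step M0 M0_symm M0_idem v1 64 (by norm_num) (M0_mulVec v1 A_v1 sum_v1) v1_dot
  refine ⟨h.1, h.2.1, ?_⟩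
  have h2 := h.2.2
  rw [M0_trace] at h2
  unfold M1
  rw [h2]
  norm_num

theorem M1_mulVec : M1 *ᵥ v2 = v2 := by
  unfold M1
  rw [sub_mulVec, smul_mulVec, M0_mulVec v2 A_v2 sum_v2, vecMulVec_mulVec, v12_dot]
  simp

theorem M2_props : M2ᵀ = M2 ∧ M2 * M2 = M2 ∧ M2.trace = 63 := by
  obtain ⟨a, b, c⟩ := M1_props
  have h := step M1 a b v2 192 (by norm_num) M1_mulVec v2_dot
  refine ⟨h.1, h.2.1, ?_⟩
  have h2 := h.2.2
  rw [c] at h2
  unfold M2
  rw [h2]
  norm_num

theorem v1_apply (i : V) (h : (i : ℕ) < 352) : v1 i = 0 := by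
  simp only [v1, Pi.sub_apply, u]
  rw [if_neg (by omega), if_neg (by omega)]
  norm_num

theorem v2_apply (i : V) (h : (i : ℕ) < 320) : v2 i = 0 := by
  simp only [v2, Pi.sub_apply, Pi.add_apply, Pi.smul_apply, u]
  rw [if_neg (by omega), if_neg (by omega), if_neg (by omega)]
  simp

theorem v2_apply' (i : V) (h : (i : ℕ) = 320) : v2 i = -2 := by
  simp only [v2, Pi.sub_apply, Pi.add_apply, Pi.smul_apply, u]
  rw [if_neg (by omega), if_neg (by omega), if_pos (by omega)]
  simp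

theorem M1_apply (i j : V) (hi : (i : ℕ) < 352) :
    M1 i j = (96 : ℝ)⁻¹ * (16 * (if i = j then 1 else 0) + 4 * ((adj i j).toNat : ℝ) - 1) := by
  unfold M1
  rw [Matrix.sub_apply, Matrix.smul_apply, vecMulVec_apply, v1_apply i hi, M0_apply]
  simp

theorem M2_apply (i j : V) (hi : (i : ℕ) < 320) :
    M2 i j = (96 : ℝ)⁻¹ * (16 * (if i = j then 1 else 0) + 4 * ((adj i j).toNat : ℝ) - 1) := by
  unfold M2
  rw [Matrix.sub_apply, Matrix.smul_apply, vecMulVec_apply, v2_apply i hi,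
    M1_apply i j (by omega)]
  simp

theorem M2_apply' (i : V) (hi : (i : ℕ) = 320) : M2 i i = 13 / 96 := by
  unfold M2
  rw [Matrix.sub_apply, Matrix.smul_apply, vecMulVec_apply, v2_apply' i hi,
    M1_apply i i (by omega), adj_self i i.2]
  simp
  norm_num

end Vale.Agent.P052
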