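import Mathlib
import Vale.Agent.P052.Proj
import Vale.Agent.P052.Geo

namespace Vale.Agent.P052

open Matrix Finset

/-- The pairs of indices whose points are at maximal distance. -/
def far (n k : ℕ) : Fin n ⊕ Fin k → Fin n ⊕ Fin k → Prop
  | Sum.inl a, Sum.inl b => a ≠ b ∧ adj a b = false
  | Sum.inl _, Sum.inr _ => True
  | Sum.inr _, Sum.inl _ => True
  | Sum.inr a, Sum.inr b => a ≠ b

theorem coloring (n k m : ℕ) (hn : n ≤ 326) (hm : 5 * m < n)
    (c : Fin n ⊕ Fin k → Fin (m + k)) : ∃ a b, far n k a b ∧ c a = c b := by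
  classical
  by_contra hcon
  push Not at hcon
  let R : Finset (Fin (m + k)) := univ.image (fun b : Fin k => c (Sum.inr b))
  have hR : R.card = k := by
    rw [card_image_of_injective, card_univ, Fintype.card_fin]
    intro a b hab
    by_contra hne
    exact hcon (Sum.inr a) (Sum.inr b) hne hab
  have hT : (univ \ R).card = m := by
    rw [card_sdiff_of_subset (subset_univ R), hR, card_univ, Fintype.card_fin]
    omega
  have h1 : (univ : Finset (Fin n)).card ≤ 5 * (univ \ R).card := by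
    apply card_le_mul_card_image_of_maps_to (f := fun a : Fin n => c (Sum.inl a))
    · intro a _
      rw [mem_sdiff]
      refine ⟨mem_univ _, ?_⟩
      intro hmem
      rw [mem_image] at hmem
      obtain ⟨b, _, hb⟩ := hmem
      exact hcon (Sum.inr b) (Sum.inl a) trivial hb
    · intro x _
      have h2 := clique_le (({a ∈ (univ : Finset (Fin n)) | c (Sum.inl a) = x}).image
        (fun a : Fin n => (a : ℕ))) (by
          intro i hi
          rw [mem_image] at hi
          obtain ⟨a, _, rfl⟩ := hi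
          have := a.2
          omega) (by
          intro i hi j hj hij
          rw [mem_image] at hi hj
          obtain ⟨a, ha, rfl⟩ := hi
          obtain ⟨b, hb, rfl⟩ := hj
          rw [mem_filter] at ha hb
          by_contra hadj
          rw [Bool.not_eq_true] at hadj
          exact hcon (Sum.inl a) (Sum.inl b) ⟨fun h => hij (by rw [h]), hadj⟩
            (ha.2.trans hb.2.symm))
      rwa [card_image_of_injective _ Fin.val_injective] at h2
  rw [hT, card_univ, Fintype.card_fin] at h1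
  omega

theorem cover_fail {κ : Type} [Finite κ] {d : ℕ} (p : κ → EuclideanSpace ℝ (Fin d)) (δ : ℝ)
    (hδ : 0 < δ) (fr : κ → κ → Prop) (hle : ∀ a b, dist (p a) (p b) ≤ δ)
    (heq : ∀ a b, fr a b → dist (p a) (p b) = δ)
    (hcol : ∀ c : κ → Fin (d + 1), ∃ a b, fr a b ∧ c a = c b) :
    ∃ Y : Set (EuclideanSpace ℝ (Fin d)), Bornology.IsBounded Y ∧ 0 < Metric.diam Y ∧
      ∀ F : Fin (d + 1) → Set (EuclideanSpace ℝ (Fin d)), (⋃ i, F i) = Y →
        ∃ i, ¬ Metric.diam (F i) < Metric.diam Y := by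
  have hb : Bornology.IsBounded (Set.range p) := (Set.finite_range p).isBounded
  obtain ⟨a0, b0, h0, _⟩ := hcol (fun _ => 0)
  have hd : Metric.diam (Set.range p) = δ := by
    apply le_antisymm
    · apply Metric.diam_le_of_forall_dist_le hδ.le
      rintro _ ⟨a, rfl⟩ _ ⟨b, rfl⟩
      exact hle a b
    · rw [← heq a0 b0 h0]
      exact Metric.dist_le_diam_of_mem hb ⟨a0, rfl⟩ ⟨b0, rfl⟩
  refine ⟨Set.range p, hb, by rw [hd]; exact hδ, ?_⟩
  intro F hF
  have h1 : ∀ a, ∃ i, p a ∈ F i := by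
    intro a
    have : p a ∈ ⋃ i, F i := by rw [hF]; exact ⟨a, rfl⟩
    exact Set.mem_iUnion.mp this
  choose c hc using h1
  obtain ⟨a, b, hab, hcab⟩ := hcol c
  refine ⟨c a, ?_⟩
  rw [not_lt, hd, ← heq a b hab]
  apply Metric.dist_le_diam_of_mem (hb.subset _) (hc a) (hcab ▸ hc b)
  rw [← hF]
  exact Set.subset_iUnion F (c a)

theorem exists_beta (k : ℕ) : ∃ α β : ℝ, α ^ 2 = 1 / 6 ∧ (1 ≤ k → 2 * α * β + k * β ^ 2 = 1 / 96) := by
  rcases Nat.eq_zero_or_pos k with h | h
  · exact ⟨Real.sqrt (1 / 6), 0, Real.sq_sqrt (by norm_num), fun h1 => by omega⟩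
  · have hk : (0 : ℝ) < k := by exact_mod_cast h
    refine ⟨Real.sqrt (1 / 6), (-Real.sqrt (1 / 6) + Real.sqrt (1 / 6 + k / 96)) / k,
      Real.sq_sqrt (by norm_num), fun _ => ?_⟩
    have h1 : Real.sqrt (1 / 6) ^ 2 = 1 / 6 := Real.sq_sqrt (by norm_num)
    have h2 : Real.sqrt (1 / 6 + k / 96) ^ 2 = 1 / 6 + k / 96 := Real.sq_sqrt (by positivity)
    set x := Real.sqrt (1 / 6)
    set y := Real.sqrt (1 / 6 + k / 96)
    field_simp
    nlinarith [h1, h2]

/-- The general construction. -/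
theorem construct (n k m : ℕ) (hn : n ≤ 326) (hm : 5 * m < n) (M : Matrix V V ℝ)
    (hs : Mᵀ = M) (hi : M * M = M) (d : ℕ) (hd : d + 1 = m + k) (ht : M.trace + k = d)
    (w : Fin n → ℝ) (e : Fin n → V) (he : ∀ a, (e a : ℕ) = a)
    (hle : ∀ a b : Fin n, w a ^ 2 * M (e a) (e a) + w b ^ 2 * M (e b) (e b)
      - 2 * (w a * w b * M (e a) (e b)) ≤ 1 / 3)
    (heq : ∀ a b : Fin n, a ≠ b → adj a b = false →
      w a ^ 2 * M (e a) (e a) + w b ^ 2 * M (e b) (e b) - 2 * (w a * w b * M (e a) (e b)) = 1 / 3)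
    (hap : 1 ≤ k → ∀ a : Fin n, w a ^ 2 * M (e a) (e a) = 15 / 96) :
    ∃ Y : Set (EuclideanSpace ℝ (Fin d)), Bornology.IsBounded Y ∧ 0 < Metric.diam Y ∧
      ∀ F : Fin (d + 1) → Set (EuclideanSpace ℝ (Fin d)), (⋃ i, F i) = Y →
        ∃ i, ¬ Metric.diam (F i) < Metric.diam Y := by
  classical
  obtain ⟨α, β, hα, hβ⟩ := exists_beta k
  obtain ⟨L, hL⟩ := exists_map (fromBlocks M 0 0 (1 : Matrix (Fin k) (Fin k) ℝ))
    (by rw [fromBlocks_transpose, hs]; simp)
    (by rw [fromBlocks_multiply]; simp [hi]) d (by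
      rw [← ht]
      simp [Matrix.trace, Fintype.sum_sum_type])
  let x : Fin n ⊕ Fin k → (V ⊕ Fin k → ℝ) := fun a => match a with
    | Sum.inl a => Sum.elim (w a • Pi.single (e a) 1) 0
    | Sum.inr b => Sum.elim 0 (α • Pi.single b 1 + β • 1)
  let B : (V ⊕ Fin k → ℝ) → (V ⊕ Fin k → ℝ) → ℝ := fun y z => inner ℝ (L y) (L z)
  have hB : ∀ (y1 z1 : V → ℝ) (y2 z2 : Fin k → ℝ),
      B (Sum.elim y1 y2) (Sum.elim z1 z2) = y1 ⬝ᵥ (M *ᵥ z1) + y2 ⬝ᵥ z2 := by
    intro y1 z1 y2 z2
    simp only [B]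
    rw [hL, fromBlocks_mulVec, Sum.elim_comp_inl, Sum.elim_comp_inr]
    simp only [zero_mulVec, add_zero, zero_add, one_mulVec]
    rw [sumElim_dotProduct_sumElim]
  have h11 : ∀ a b : Fin n, B (x (Sum.inl a)) (x (Sum.inl b)) = w a * w b * M (e a) (e b) := by
    intro a b
    simp only [x]
    rw [hB, mulVec_smul, dotProduct_smul, smul_dotProduct, mulVec_single_one,
      single_one_dotProduct, zero_dotProduct]
    simp only [smul_eq_mul, Matrix.col_apply]
    ring
  have h12 : ∀ (a : Fin n) (b : Fin k), B (x (Sum.inl a)) (x (Sum.inr b)) = 0 := by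
    intro a b
    simp only [x]
    rw [hB, mulVec_zero, dotProduct_zero, zero_dotProduct, add_zero]
  have h22 : ∀ a b : Fin k, B (x (Sum.inr a)) (x (Sum.inr b)) =
      (if a = b then α ^ 2 else 0) + 2 * α * β + k * β ^ 2 := by
    intro a b
    simp only [x]
    rw [hB, mulVec_zero, dotProduct_zero, zero_add]
    have h0 : (1 : Fin k → ℝ) ⬝ᵥ 1 = k := by simp [dotProduct]
    have h1 : (Pi.single a 1 : Fin k → ℝ) ⬝ᵥ 1 = 1 := by simp
    have h2 : (1 : Fin k → ℝ) ⬝ᵥ (Pi.single b 1 : Fin k → ℝ) = 1 := by simp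
    have h3 : (Pi.single a 1 : Fin k → ℝ) ⬝ᵥ (Pi.single b 1 : Fin k → ℝ) =
        if a = b then 1 else 0 := by
      rw [single_one_dotProduct, Pi.single_apply]
    simp only [add_dotProduct, dotProduct_add, smul_dotProduct, dotProduct_smul, smul_eq_mul,
      h0, h1, h2, h3]
    by_cases h : a = b
    · rw [if_pos h, if_pos h]
      ring
    · rw [if_neg h, if_neg h]
      ring
  have hdist : ∀ a b, dist (L (x a)) (L (x b)) ^ 2 = B (x a) (x a) + B (x b) (x b)
      - 2 * B (x a) (x b) := by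
    intro a b
    rw [dist_eq_norm, norm_sub_sq_real]
    simp only [B]
    rw [real_inner_self_eq_norm_sq, real_inner_self_eq_norm_sq]
    ring
  have key : ∀ a b, (B (x a) (x a) + B (x b) (x b) - 2 * B (x a) (x b) ≤ 1 / 3) ∧
      (far n k a b → B (x a) (x a) + B (x b) (x b) - 2 * B (x a) (x b) = 1 / 3) := by
    rintro (a | a) (b | b)
    · rw [h11, h11, h11]
      have e1 : w a * w a * M (e a) (e a) = w a ^ 2 * M (e a) (e a) := by ring
      have e2 : w b * w b * M (e b) (e b) = w b ^ 2 * M (e b) (e b) := by ring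
      rw [e1, e2]
      exact ⟨hle a b, fun h => heq a b h.1 h.2⟩
    · have hk : 1 ≤ k := by have := b.2; omega
      have h3 := hap hk a
      have h4 := hβ hk
      have h5 : B (x (Sum.inl a)) (x (Sum.inl a)) = 15 / 96 := by rw [h11, ← h3]; ring
      have h6 : B (x (Sum.inr b)) (x (Sum.inr b)) = 17 / 96 := by
        rw [h22, if_pos rfl]
        linarith
      rw [h5, h6, h12]
      constructor
      · norm_num
      · intro _; norm_num
    · have hk : 1 ≤ k := by have := a.2; omega
      have h3 := hap hk b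
      have h4 := hβ hk
      have h5 : B (x (Sum.inl b)) (x (Sum.inl b)) = 15 / 96 := by rw [h11, ← h3]; ring
      have h6 : B (x (Sum.inr a)) (x (Sum.inr a)) = 17 / 96 := by
        rw [h22, if_pos rfl]
        linarith
      have h7 : B (x (Sum.inr a)) (x (Sum.inl b)) = 0 := by
        simp only [B]
        rw [real_inner_comm]
        exact h12 b a
      rw [h5, h6, h7]
      constructor
      · norm_num
      · intro _; norm_num
    · have hk : 1 ≤ k := by have := a.2; omega
      have h4 := hβ hk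
      rw [h22, h22, h22, if_pos rfl, if_pos rfl]
      by_cases h : a = b
      · rw [if_pos h]
        constructor
        · linarith
        · intro hf; exact absurd h hf
      · rw [if_neg h]
        constructor
        · linarith
        · intro _; linarith
  have hδ : (0 : ℝ) < Real.sqrt (1 / 3) := Real.sqrt_pos.mpr (by norm_num)
  apply cover_fail (fun a => L (x a)) (Real.sqrt (1 / 3)) hδ (far n k)
  · intro a b
    apply Real.le_sqrt_of_sq_le
    rw [hdist]
    exact (key a b).1
  · intro a b hab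
    rw [← (key a b).2 hab, ← hdist, Real.sqrt_sq dist_nonneg]
  · rw [hd]
    exact coloring n k m hn hm

end Vale.Agent.P052
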