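import Mathlib
import Vale.Agent.P052.Fail

namespace Vale.Agent.P052

open Matrix Finset

theorem toNat_le_one (b : Bool) : (b.toNat : ℝ) ≤ 1 := by cases b <;> simp

theorem toNat_nonneg (b : Bool) : (0 : ℝ) ≤ (b.toNat : ℝ) := by cases b <;> simp

theorem case63 : ∃ Y : Set (EuclideanSpace ℝ (Fin 63)), Bornology.IsBounded Y ∧
    0 < Metric.diam Y ∧ ∀ F : Fin (63 + 1) → Set (EuclideanSpace ℝ (Fin 63)), (⋃ i, F i) = Y →
        ∃ i, ¬ Metric.diam (F i) < Metric.diam Y := by
  obtain ⟨h1, h2, h3⟩ := M2_props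
  have hsq : Real.sqrt 222 ^ 2 = 222 := Real.sq_sqrt (by norm_num)
  have hge : (1 : ℝ) < Real.sqrt 222 := by
    rw [Real.lt_sqrt (by norm_num)]
    norm_num
  obtain ⟨t, ht0, ht⟩ : ∃ t : ℝ, 0 < t ∧ 13 * t ^ 2 + 2 * t = 17 := by
    refine ⟨(Real.sqrt 222 - 1) / 13, by linarith, ?_⟩
    nlinarith [hsq]
  let w : Fin 321 → ℝ := fun a => if (a : ℕ) < 320 then 1 else t
  let e : Fin 321 → V := fun a => ⟨a, by have := a.2; omega⟩
  have hw1 : ∀ a : Fin 321, (a : ℕ) < 320 → w a = 1 := fun a h => if_pos h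
  have hw2 : ∀ a : Fin 321, ¬ (a : ℕ) < 320 → w a = t := fun a h => if_neg h
  have hd1 : ∀ a : Fin 321, (a : ℕ) < 320 → M2 (e a) (e a) = 15 / 96 := by
    intro a h
    rw [M2_apply (e a) (e a) h, adj_self a (by omega)]
    simp
    norm_num
  have hd2 : ∀ a : Fin 321, ¬ (a : ℕ) < 320 → M2 (e a) (e a) = 13 / 96 := by
    intro a h
    exact M2_apply' (e a) (by have := a.2; show (a : ℕ) = 320; omega)
  have hoff : ∀ a b : Fin 321, a ≠ b → ((a : ℕ) < 320 ∨ (b : ℕ) < 320) →
      M2 (e a) (e b) = (4 * ((adj a b).toNat : ℝ) - 1) / 96 := by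
    intro a b hab h
    have hne : e a ≠ e b := fun h => hab (by
      have := congrArg Fin.val h
      exact Fin.ext this)
    rcases h with h | h
    · rw [M2_apply (e a) (e b) h, if_neg hne]
      ring_nf
      rfl
    · have : M2 (e a) (e b) = M2 (e b) (e a) := by
        conv_lhs => rw [← h1]
        rfl
      rw [this, M2_apply (e b) (e a) h, if_neg (Ne.symm hne),
        adj_comm (e b) (e a) (e b).2 (e a).2]
      ring_nf
      rfl
  have main : ∀ a b : Fin 321, a ≠ b →
      (w a ^ 2 * M2 (e a) (e a) + w b ^ 2 * M2 (e b) (e b) - 2 * (w a * w b * M2 (e a) (e b))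
        ≤ 1 / 3) ∧ (adj a b = false →
      w a ^ 2 * M2 (e a) (e a) + w b ^ 2 * M2 (e b) (e b) - 2 * (w a * w b * M2 (e a) (e b))
        = 1 / 3) := by
    intro a b hab
    have hn := toNat_nonneg (adj a b)
    by_cases ha : (a : ℕ) < 320
    · by_cases hb : (b : ℕ) < 320
      · rw [hoff a b hab (Or.inl ha), hd1 a ha, hd1 b hb, hw1 a ha, hw1 b hb]
        constructor
        · linarith
        · intro h
          rw [h]
          norm_num
      · rw [hoff a b hab (Or.inl ha), hd1 a ha, hd2 b hb, hw1 a ha, hw2 b hb]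
        constructor
        · nlinarith [mul_nonneg ht0.le hn]
        · intro h
          rw [h]
          simp
          linarith
    · by_cases hb : (b : ℕ) < 320
      · rw [hoff a b hab (Or.inr hb), hd2 a ha, hd1 b hb, hw2 a ha, hw1 b hb]
        constructor
        · nlinarith [mul_nonneg ht0.le hn]
        · intro h
          rw [h]
          simp
          linarith
      · exact absurd (Fin.ext (by have := a.2; have := b.2; omega)) hab
  apply construct 321 0 64 (by norm_num) (by norm_num) M2 h1 h2 63 (by norm_num)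
    (by rw [h3]; norm_num) w e (fun a => rfl)
  · intro a b
    by_cases hab : a = b
    · subst hab
      have : w a ^ 2 * M2 (e a) (e a) + w a ^ 2 * M2 (e a) (e a)
          - 2 * (w a * w a * M2 (e a) (e a)) = 0 := by ring
      rw [this]
      norm_num
    · exact (main a b hab).1
  · intro a b hab h
    exact (main a b hab).2 h
  · intro h
    omega

theorem case64 (k : ℕ) : ∃ Y : Set (EuclideanSpace ℝ (Fin (64 + k))), Bornology.IsBounded Y ∧
    0 < Metric.diam Y ∧
      ∀ F : Fin (64 + k + 1) → Set (EuclideanSpace ℝ (Fin (64 + k))), (⋃ i, F i) = Y →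
        ∃ i, ¬ Metric.diam (F i) < Metric.diam Y := by
  obtain ⟨h1, h2, h3⟩ := M1_props
  let e : Fin 326 → V := fun a => ⟨a, by have := a.2; omega⟩
  have hd1 : ∀ a : Fin 326, M1 (e a) (e a) = 15 / 96 := by
    intro a
    have := a.2
    rw [M1_apply (e a) (e a) (by show (a : ℕ) < 352; omega), adj_self (e a) (e a).2]
    simp
    norm_num
  have hoff : ∀ a b : Fin 326, a ≠ b →
      M1 (e a) (e b) = (4 * ((adj a b).toNat : ℝ) - 1) / 96 := by
    intro a b hab
    have := a.2
    have hne : e a ≠ e b := fun h => hab (by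
      have := congrArg Fin.val h
      exact Fin.ext this)
    rw [M1_apply (e a) (e b) (by show (a : ℕ) < 352; omega), if_neg hne]
    ring_nf
    rfl
  apply construct 326 k 65 (by norm_num) (by norm_num) M1 h1 h2 (64 + k) (by ring)
    (by rw [h3]; push_cast; ring) (fun _ => 1) e (fun a => rfl)
  · intro a b
    by_cases hab : a = b
    · subst hab
      have : (1 : ℝ) ^ 2 * M1 (e a) (e a) + 1 ^ 2 * M1 (e a) (e a)
          - 2 * (1 * 1 * M1 (e a) (e a)) = 0 := by ring
      rw [this]
      norm_num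
    · have hn := toNat_nonneg (adj a b)
      rw [hoff a b hab, hd1 a, hd1 b]
      linarith
  · intro a b hab h
    rw [hoff a b hab, hd1 a, hd1 b, h]
    norm_num
  · intro _ a
    rw [hd1 a]
    norm_num

end Vale.Agent.P052
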